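import Vale.Agent.P243E24.Main

namespace Vale.Agent.Results.P243.ALiteral

open Vale.Agent.P243E

/-- Bang's half-area inequality and its directionwise form, stated as in the problem for cylinders
`B + ℝ u` in Euclidean three-space, are false, already for the regular tetrahedron; the minimum
`Amin` is attained; the lower bound `1 / 3` is not sharp; the inequalities hold, sharply, for
coplanar axes and for two axis directions; bounds for `r₃` and `c₃`. -/
theorem result :
    ¬ HalfArea E3 ∧ ¬ HalfRel E3 ∧ WellDefined E3 ∧ CoveredWithin tetra (1 / 2 - 1 / 5000) ∧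
    LowerBound E3 ∧ SpecialAxes E3 ∧ Extremal tetra ∧
    1 / 3 < r3 E3 ∧ r3 E3 ≤ 5 / 12 ∧ r3 E3 ≤ c3 E3 ∧ c3 E3 ≤ 1 / 2 - 1 / 5000 :=
  ⟨not_halfArea, not_halfRel, wellDefined, coveredWithin, lowerBound, specialAxes, extremal,
    third_lt_r3, r3_le, r3_le_c3, c3_le⟩

end Vale.Agent.Results.P243.ALiteral
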